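import Crest.Agent.SG.Uniq
import Crest.Agent.SG.FastProof

/-!
# The generators (triples that are not sums of smaller ones), by uniqueness certificates
-/

set_option autoImplicit false

namespace Crest.Agent.SG

open Finset Equiv Crest.Agent.Saxl

theorem gen0 : Good [2, 1] [2, 1] [2, 1] := by
  refine good_of_unique 3 [0, 1, 0] [0, 0, 1] [0, 1, 0]
    [0, 0, 1] [0, 1, 0] [1, 0, 0]
    [2, 1] [2, 1] [2, 1]
    _ _ _ ?_ ?_ ?_ ?_ ?_ ?_ ?_ ?_ ?_ ?_
    [(0, 0, 0), (1, 1, 1)] ?_ ?_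
  · decide
  · exact isCol_of_dec (by decide +kernel) (by decide +kernel)
  · exact isCol_of_dec (by decide +kernel) (by decide +kernel)
  · exact isCol_of_dec (by decide +kernel) (by decide +kernel)
  · exact rowSz_of_dec (m := 14) (by decide +kernel) (by decide +kernel) (by decide)
  · exact rowSz_of_dec (m := 14) (by decide +kernel) (by decide +kernel) (by decide)
  · exact rowSz_of_dec (m := 14) (by decide +kernel) (by decide +kernel) (by decide)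
  · decide +kernel
  · decide +kernel
  · decide +kernel
  · decide +kernel
  · decide +kernel

theorem gen1 : Good [3, 2] [3, 2] [2, 2, 1] := by
  refine good_of_unique 5 [0, 1, 0, 1, 0] [0, 1, 1, 0, 2] [0, 0, 1, 0, 1]
    [0, 2, 1, 1, 0] [2, 0, 1, 0, 1] [0, 0, 0, 1, 1]
    [2, 2, 1] [2, 2, 1] [3, 2]
    _ _ _ ?_ ?_ ?_ ?_ ?_ ?_ ?_ ?_ ?_ ?_
    [(0, 0, 2), (0, 1, 1), (1, 0, 0)] ?_ ?_
  · decide
  · exact isCol_of_dec (by decide +kernel) (by decide +kernel)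
  · exact isCol_of_dec (by decide +kernel) (by decide +kernel)
  · exact isCol_of_dec (by decide +kernel) (by decide +kernel)
  · exact rowSz_of_dec (m := 14) (by decide +kernel) (by decide +kernel) (by decide)
  · exact rowSz_of_dec (m := 14) (by decide +kernel) (by decide +kernel) (by decide)
  · exact rowSz_of_dec (m := 14) (by decide +kernel) (by decide +kernel) (by decide)
  · decide +kernel
  · decide +kernel
  · decide +kernel
  · decide +kernel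
  · decide +kernel

theorem gen2 : Good [3, 3] [3, 2, 1] [3, 2, 1] := by
  refine good_of_unique 6 [0, 1, 0, 1, 0, 1] [1, 1, 0, 0, 2, 2] [2, 0, 1, 0, 1, 0]
    [0, 1, 1, 2, 0, 0] [2, 0, 1, 0, 1, 0] [0, 1, 0, 0, 1, 2]
    [2, 2, 2] [3, 2, 1] [3, 2, 1]
    _ _ _ ?_ ?_ ?_ ?_ ?_ ?_ ?_ ?_ ?_ ?_
    [(0, 1, 1), (0, 2, 2), (1, 0, 0)] ?_ ?_
  · decide
  · exact isCol_of_dec (by decide +kernel) (by decide +kernel)
  · exact isCol_of_dec (by decide +kernel) (by decide +kernel)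
  · exact isCol_of_dec (by decide +kernel) (by decide +kernel)
  · exact rowSz_of_dec (m := 14) (by decide +kernel) (by decide +kernel) (by decide)
  · exact rowSz_of_dec (m := 14) (by decide +kernel) (by decide +kernel) (by decide)
  · exact rowSz_of_dec (m := 14) (by decide +kernel) (by decide +kernel) (by decide)
  · decide +kernel
  · decide +kernel
  · decide +kernel
  · decide +kernel
  · decide +kernel

theorem gen3 : Good [4, 1, 1] [4, 1, 1] [3, 3] := by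
  refine good_of_unique 6 [1, 0, 2, 0, 0, 0] [0, 0, 0, 3, 1, 2] [0, 0, 1, 0, 2, 0]
    [3, 2, 0, 0, 0, 1] [1, 0, 1, 0, 1, 0] [0, 1, 1, 0, 2, 2]
    [3, 1, 1, 1] [3, 1, 1, 1] [2, 2, 2]
    _ _ _ ?_ ?_ ?_ ?_ ?_ ?_ ?_ ?_ ?_ ?_
    [(0, 0, 0), (0, 2, 1), (1, 0, 1), (2, 1, 1)] ?_ ?_
  · decide
  · exact isCol_of_dec (by decide +kernel) (by decide +kernel)
  · exact isCol_of_dec (by decide +kernel) (by decide +kernel)
  · exact isCol_of_dec (by decide +kernel) (by decide +kernel)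
  · exact rowSz_of_dec (m := 14) (by decide +kernel) (by decide +kernel) (by decide)
  · exact rowSz_of_dec (m := 14) (by decide +kernel) (by decide +kernel) (by decide)
  · exact rowSz_of_dec (m := 14) (by decide +kernel) (by decide +kernel) (by decide)
  · decide +kernel
  · decide +kernel
  · decide +kernel
  · decide +kernel
  · decide +kernel

theorem gen4 : Good [4, 2, 1, 1] [4, 2, 1, 1] [3, 3, 2] := by
  refine good_of_unique 8 [2, 1, 3, 0, 0, 0, 1, 0] [0, 0, 0, 0, 1, 3, 1, 2] [2, 0, 1, 0, 0, 3, 1, 0]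
    [0, 2, 0, 0, 3, 0, 1, 1] [1, 2, 2, 0, 0, 1, 1, 0] [1, 1, 0, 2, 1, 0, 2, 0]
    [4, 2, 1, 1] [4, 2, 1, 1] [3, 3, 2]
    _ _ _ ?_ ?_ ?_ ?_ ?_ ?_ ?_ ?_ ?_ ?_
    [(0, 0, 0), (0, 3, 1), (1, 0, 2), (1, 1, 1), (2, 2, 1), (3, 1, 2)] ?_ ?_
  · decide
  · exact isCol_of_dec (by decide +kernel) (by decide +kernel)
  · exact isCol_of_dec (by decide +kernel) (by decide +kernel)
  · exact isCol_of_dec (by decide +kernel) (by decide +kernel)
  · exact rowSz_of_dec (m := 14) (by decide +kernel) (by decide +kernel) (by decide)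
  · exact rowSz_of_dec (m := 14) (by decide +kernel) (by decide +kernel) (by decide)
  · exact rowSz_of_dec (m := 14) (by decide +kernel) (by decide +kernel) (by decide)
  · decide +kernel
  · decide +kernel
  · decide +kernel
  · decide +kernel
  · decide +kernel

theorem gen5 : Good [4, 3, 3, 1] [4, 3, 3, 1] [4, 4, 3] := by
  refine good_of_unique 11 [1, 2, 0, 1, 0, 2, 0, 1, 0, 3, 2] [2, 2, 0, 0, 3, 0, 1, 1, 2, 0, 1] [0, 3, 1, 2, 0, 0, 1, 2, 1, 2, 0]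
    [3, 0, 0, 0, 0, 1, 1, 1, 2, 2, 2] [2, 0, 1, 2, 0, 0, 1, 2, 1, 1, 0] [1, 1, 1, 0, 0, 2, 0, 2, 2, 3, 3]
    [4, 3, 3, 1] [4, 3, 3, 1] [3, 3, 3, 2]
    _ _ _ ?_ ?_ ?_ ?_ ?_ ?_ ?_ ?_ ?_ ?_
    [(0, 0, 0), (0, 1, 1), (1, 0, 2), (1, 2, 2), (2, 0, 0), (2, 3, 0), (3, 2, 1)] ?_ ?_
  · decide
  · exact isCol_of_dec (by decide +kernel) (by decide +kernel)
  · exact isCol_of_dec (by decide +kernel) (by decide +kernel)
  · exact isCol_of_dec (by decide +kernel) (by decide +kernel)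
  · exact rowSz_of_dec (m := 14) (by decide +kernel) (by decide +kernel) (by decide)
  · exact rowSz_of_dec (m := 14) (by decide +kernel) (by decide +kernel) (by decide)
  · exact rowSz_of_dec (m := 14) (by decide +kernel) (by decide +kernel) (by decide)
  · decide +kernel
  · decide +kernel
  · decide +kernel
  · decide +kernel
  · decide +kernel

theorem gen6 : Good [4, 3, 3, 1] [4, 3, 3, 1] [5, 3, 3] := by
  refine good_of_unique 11 [1, 3, 2, 0, 0, 0, 1, 2, 2, 1, 0] [0, 0, 0, 0, 3, 1, 1, 1, 2, 2, 2] [1, 1, 2, 0, 1, 0, 2, 3, 2, 0, 0]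
    [2, 1, 0, 0, 0, 2, 1, 0, 2, 3, 1] [1, 0, 2, 0, 2, 0, 1, 0, 2, 1, 0] [2, 1, 1, 0, 2, 2, 0, 4, 0, 1, 3]
    [4, 3, 3, 1] [4, 3, 3, 1] [3, 3, 3, 1, 1]
    _ _ _ ?_ ?_ ?_ ?_ ?_ ?_ ?_ ?_ ?_ ?_
    [(0, 0, 0), (0, 1, 2), (1, 0, 1), (1, 1, 1), (1, 2, 1), (2, 2, 2), (2, 3, 0), (3, 1, 0)] ?_ ?_
  · decide
  · exact isCol_of_dec (by decide +kernel) (by decide +kernel)
  · exact isCol_of_dec (by decide +kernel) (by decide +kernel)
  · exact isCol_of_dec (by decide +kernel) (by decide +kernel)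
  · exact rowSz_of_dec (m := 14) (by decide +kernel) (by decide +kernel) (by decide)
  · exact rowSz_of_dec (m := 14) (by decide +kernel) (by decide +kernel) (by decide)
  · exact rowSz_of_dec (m := 14) (by decide +kernel) (by decide +kernel) (by decide)
  · decide +kernel
  · decide +kernel
  · decide +kernel
  · decide +kernel
  · decide +kernel

theorem gen7 : Good [5, 3, 3, 1, 1] [5, 3, 3, 1, 1] [4, 4, 4, 1] := by
  refine good_of_unique 13 [1, 0, 2, 0, 0, 1, 2, 0, 3, 4, 1, 2, 0] [2, 1, 1, 3, 2, 0, 0, 0, 0, 0, 1, 2, 4] [1, 2, 0, 2, 0, 1, 0, 4, 0, 3, 1, 0, 2]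
    [2, 1, 2, 2, 1, 1, 4, 0, 3, 0, 0, 0, 0] [1, 0, 2, 0, 1, 1, 2, 3, 1, 2, 0, 2, 0] [0, 0, 1, 1, 1, 2, 0, 0, 3, 3, 3, 2, 2]
    [5, 3, 3, 1, 1] [5, 3, 3, 1, 1] [4, 3, 3, 3]
    _ _ _ ?_ ?_ ?_ ?_ ?_ ?_ ?_ ?_ ?_ ?_
    [(0, 0, 1), (0, 2, 0), (0, 4, 3), (1, 1, 0), (1, 1, 1), (2, 0, 2), (3, 0, 1), (4, 3, 2)] ?_ ?_
  · decide
  · exact isCol_of_dec (by decide +kernel) (by decide +kernel)
  · exact isCol_of_dec (by decide +kernel) (by decide +kernel)
  · exact isCol_of_dec (by decide +kernel) (by decide +kernel)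
  · exact rowSz_of_dec (m := 14) (by decide +kernel) (by decide +kernel) (by decide)
  · exact rowSz_of_dec (m := 14) (by decide +kernel) (by decide +kernel) (by decide)
  · exact rowSz_of_dec (m := 14) (by decide +kernel) (by decide +kernel) (by decide)
  · decide +kernel
  · decide +kernel
  · decide +kernel
  · decide +kernel
  · decide +kernel

theorem gen8 : Good [5, 3, 3, 1, 1] [5, 3, 3, 1, 1] [4, 4, 3, 2] := by
  refine good_of_unique 13 [1, 2, 0, 1, 0, 0, 2, 0, 3, 1, 4, 2, 0] [1, 2, 2, 2, 3, 1, 1, 4, 0, 0, 0, 0, 0] [2, 0, 1, 2, 0, 4, 0, 1, 3, 2, 1, 0, 0]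
    [2, 1, 1, 1, 2, 0, 0, 0, 0, 0, 2, 4, 3] [3, 1, 0, 3, 1, 0, 1, 2, 0, 2, 0, 1, 2] [0, 0, 3, 1, 3, 0, 2, 1, 1, 2, 2, 1, 0]
    [5, 3, 3, 1, 1] [5, 3, 3, 1, 1] [4, 4, 3, 2]
    _ _ _ ?_ ?_ ?_ ?_ ?_ ?_ ?_ ?_ ?_ ?_
    [(0, 0, 1), (0, 0, 2), (0, 1, 0), (0, 1, 2), (0, 4, 0), (1, 2, 2), (1, 2, 3), (2, 0, 1), (3, 3, 0), (4, 1, 0)] ?_ ?_
  · decide
  · exact isCol_of_dec (by decide +kernel) (by decide +kernel)
  · exact isCol_of_dec (by decide +kernel) (by decide +kernel)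
  · exact isCol_of_dec (by decide +kernel) (by decide +kernel)
  · exact rowSz_of_dec (m := 14) (by decide +kernel) (by decide +kernel) (by decide)
  · exact rowSz_of_dec (m := 14) (by decide +kernel) (by decide +kernel) (by decide)
  · exact rowSz_of_dec (m := 14) (by decide +kernel) (by decide +kernel) (by decide)
  · decide +kernel
  · decide +kernel
  · decide +kernel
  · decide +kernel
  · decide +kernel

theorem gen9 : Good [4, 3, 3, 1] [4, 3, 3, 1] [5, 4, 2] := by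
  refine good_of_unique 11 [2, 1, 1, 0, 2, 0, 0, 1, 3, 0, 2] [2, 1, 2, 2, 1, 3, 0, 0, 0, 1, 0] [2, 0, 3, 1, 2, 0, 1, 0, 0, 1, 2]
    [0, 3, 0, 2, 2, 2, 0, 0, 1, 1, 1] [0, 2, 1, 1, 0, 0, 1, 0, 2, 1, 0] [0, 1, 1, 0, 1, 3, 3, 2, 0, 2, 4]
    [4, 3, 3, 1] [4, 3, 3, 1] [3, 3, 2, 2, 1]
    _ _ _ ?_ ?_ ?_ ?_ ?_ ?_ ?_ ?_ ?_ ?_
    [(0, 0, 0), (0, 1, 1), (1, 0, 0), (1, 0, 2), (1, 3, 1), (2, 2, 0), (3, 0, 2)] ?_ ?_
  · decide
  · exact isCol_of_dec (by decide +kernel) (by decide +kernel)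
  · exact isCol_of_dec (by decide +kernel) (by decide +kernel)
  · exact isCol_of_dec (by decide +kernel) (by decide +kernel)
  · exact rowSz_of_dec (m := 14) (by decide +kernel) (by decide +kernel) (by decide)
  · exact rowSz_of_dec (m := 14) (by decide +kernel) (by decide +kernel) (by decide)
  · exact rowSz_of_dec (m := 14) (by decide +kernel) (by decide +kernel) (by decide)
  · decide +kernel
  · decide +kernel
  · decide +kernel
  · decide +kernel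
  · decide +kernel

theorem gen10 : Good [4, 3, 3, 1] [4, 3, 3, 1] [5, 5, 1] := by
  refine good_of_unique 11 [0, 3, 2, 0, 2, 0, 1, 1, 2, 1, 0] [2, 0, 2, 0, 0, 1, 0, 1, 1, 2, 3] [0, 1, 2, 3, 2, 1, 0, 0, 2, 0, 1]
    [0, 2, 2, 0, 0, 0, 3, 2, 1, 1, 1] [1, 0, 1, 0, 1, 2, 0, 0, 1, 0, 1] [1, 1, 2, 2, 0, 0, 0, 4, 4, 3, 3]
    [4, 3, 3, 1] [4, 3, 3, 1] [3, 2, 2, 2, 2]
    _ _ _ ?_ ?_ ?_ ?_ ?_ ?_ ?_ ?_ ?_ ?_
    [(0, 0, 1), (0, 1, 1), (0, 1, 2), (0, 3, 0), (1, 0, 0), (2, 2, 1), (3, 1, 0)] ?_ ?_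
  · decide
  · exact isCol_of_dec (by decide +kernel) (by decide +kernel)
  · exact isCol_of_dec (by decide +kernel) (by decide +kernel)
  · exact isCol_of_dec (by decide +kernel) (by decide +kernel)
  · exact rowSz_of_dec (m := 14) (by decide +kernel) (by decide +kernel) (by decide)
  · exact rowSz_of_dec (m := 14) (by decide +kernel) (by decide +kernel) (by decide)
  · exact rowSz_of_dec (m := 14) (by decide +kernel) (by decide +kernel) (by decide)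
  · decide +kernel
  · decide +kernel
  · decide +kernel
  · decide +kernel
  · decide +kernel

theorem gen11 : Good [4, 3, 3, 1] [4, 3, 3, 1] [6, 5] := by
  refine good_of_unique 11 [2, 1, 0, 1, 2, 0, 1, 3, 2, 0, 0] [1, 2, 2, 1, 2, 1, 0, 0, 0, 0, 3] [2, 0, 1, 0, 2, 1, 0, 3, 2, 1, 0]
    [0, 0, 0, 3, 2, 2, 2, 0, 1, 1, 1] [0, 0, 1, 0, 1, 1, 0, 1, 0, 1, 0] [5, 4, 2, 2, 0, 3, 0, 1, 3, 4, 1]
    [4, 3, 3, 1] [4, 3, 3, 1] [2, 2, 2, 2, 2, 1]
    _ _ _ ?_ ?_ ?_ ?_ ?_ ?_ ?_ ?_ ?_ ?_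
    [(0, 0, 0), (0, 1, 1), (1, 0, 0), (2, 2, 0), (2, 2, 1), (3, 3, 1)] ?_ ?_
  · decide
  · exact isCol_of_dec (by decide +kernel) (by decide +kernel)
  · exact isCol_of_dec (by decide +kernel) (by decide +kernel)
  · exact isCol_of_dec (by decide +kernel) (by decide +kernel)
  · exact rowSz_of_dec (m := 14) (by decide +kernel) (by decide +kernel) (by decide)
  · exact rowSz_of_dec (m := 14) (by decide +kernel) (by decide +kernel) (by decide)
  · exact rowSz_of_dec (m := 14) (by decide +kernel) (by decide +kernel) (by decide)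
  · decide +kernel
  · decide +kernel
  · decide +kernel
  · decide +kernel
  · decide +kernel

theorem gen12 : Good [4, 3, 3, 1] [4, 3, 3, 1] [7, 4] := by
  refine good_of_unique 11 [1, 0, 2, 1, 0, 2, 3, 0, 1, 0, 2] [1, 1, 0, 0, 0, 1, 0, 3, 2, 2, 2] [3, 1, 0, 2, 1, 0, 1, 0, 2, 2, 0]
    [0, 0, 0, 0, 1, 1, 2, 2, 2, 1, 3] [0, 1, 0, 1, 1, 0, 0, 0, 1, 0, 0] [3, 2, 2, 0, 3, 5, 4, 1, 1, 6, 0]
    [4, 3, 3, 1] [4, 3, 3, 1] [2, 2, 2, 2, 1, 1, 1]
    _ _ _ ?_ ?_ ?_ ?_ ?_ ?_ ?_ ?_ ?_ ?_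
    [(0, 0, 0), (0, 1, 1), (0, 2, 0), (1, 2, 1), (1, 3, 0), (2, 0, 0), (3, 1, 0)] ?_ ?_
  · decide
  · exact isCol_of_dec (by decide +kernel) (by decide +kernel)
  · exact isCol_of_dec (by decide +kernel) (by decide +kernel)
  · exact isCol_of_dec (by decide +kernel) (by decide +kernel)
  · exact rowSz_of_dec (m := 14) (by decide +kernel) (by decide +kernel) (by decide)
  · exact rowSz_of_dec (m := 14) (by decide +kernel) (by decide +kernel) (by decide)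
  · exact rowSz_of_dec (m := 14) (by decide +kernel) (by decide +kernel) (by decide)
  · decide +kernel
  · decide +kernel
  · decide +kernel
  · decide +kernel
  · decide +kernel

/-- packed versions -/
theorem goodN_of_good {α β γ : List ℕ} (h : Good α β γ) (hs : α.sum ≤ 255)
    (h1 : α.length ≤ 256) (h2 : β.length ≤ 256) (h3 : γ.length ≤ 256) :
    GoodN (code α) (code β) (code γ) := ⟨α, β, γ, h, rfl, rfl, rfl, hs, h1, h2, h3⟩

end Crest.Agent.SG
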