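import Crest.Agent.SG.Gens

/-!
# Oriented generators (packed), used in the small certificates
-/

set_option autoImplicit false

namespace Crest.Agent.SG

theorem og0 : Good [2, 1] [2, 1] [2, 1] := gen0

theorem og1 : Good [2, 2, 1] [2, 2, 1] [2, 2, 1] := good_tr12 (gen1)

theorem og2 : Good [3, 2, 1] [3, 2, 1] [2, 2, 2] := good_swap23 (good_tr12 (good_swap12 (gen2)))

theorem og3 : Good [3, 1, 1, 1] [3, 1, 1, 1] [3, 3] := good_tr12 (gen3)

theorem og4 : Good [4, 2, 1, 1] [4, 2, 1, 1] [3, 3, 2] := gen4

theorem og5 : Good [4, 1, 1] [3, 1, 1, 1] [2, 2, 2] := good_swap12 (good_swap23 (good_tr12 (good_swap23 (gen3))))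

theorem og6 : Good [4, 3, 3, 1] [4, 3, 3, 1] [3, 3, 3, 2] := good_swap23 (good_tr12 (good_swap23 (gen5)))

theorem og7 : Good [4, 3, 3, 1] [4, 3, 3, 1] [3, 3, 3, 1, 1] := good_swap23 (good_tr12 (good_swap23 (gen6)))

theorem og8 : Good [4, 3, 3, 1] [4, 3, 3, 1] [3, 3, 2, 2, 1] := good_swap23 (good_tr12 (good_swap23 (gen9)))

theorem og9 : Good [4, 3, 3, 1] [4, 3, 3, 1] [3, 2, 2, 2, 2] := good_swap23 (good_tr12 (good_swap23 (gen10)))

theorem og10 : Good [3, 2] [3, 2] [2, 2, 1] := gen1

theorem og11 : Good [4, 3, 3, 1] [4, 3, 3, 1] [2, 2, 2, 2, 2, 1] := good_swap23 (good_tr12 (good_swap23 (gen11)))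

theorem og12 : Good [4, 3, 3, 1] [4, 3, 3, 1] [2, 2, 2, 2, 1, 1, 1] := good_swap23 (good_tr12 (good_swap23 (gen12)))

theorem og13 : Good [3, 2, 1] [3, 2, 1] [3, 3] := good_swap23 (good_swap12 (gen2))

theorem og14 : Good [3, 3, 2] [4, 2, 1, 1] [4, 2, 1, 1] := good_swap12 (good_swap23 (gen4))

theorem og15 : Good [2, 2, 1] [3, 2] [3, 2] := good_swap12 (good_swap23 (gen1))

theorem og16 : Good [5, 3, 3, 1, 1] [5, 3, 3, 1, 1] [4, 4, 3, 2] := gen8

theorem og17 : Good [5, 3, 3, 1, 1] [5, 3, 3, 1, 1] [4, 3, 3, 3] := good_swap23 (good_tr12 (good_swap23 (gen7)))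

theorem og18 : Good [3, 1, 1, 1] [2, 2, 2] [4, 1, 1] := good_tr12 (good_swap23 (gen3))

theorem og19 : Good [4, 3, 3, 1] [4, 3, 3, 1] [4, 4, 3] := gen5

theorem og20 : Good [4, 3, 3, 1] [4, 3, 3, 1] [5, 3, 3] := gen6

theorem og21 : Good [4, 3, 3, 1] [4, 3, 3, 1] [5, 4, 2] := gen9

theorem og22 : Good [2, 2, 2] [3, 1, 1, 1] [4, 1, 1] := good_tr12 (good_swap12 (good_swap23 (gen3)))

theorem og23 : Good [4, 3, 3, 1] [4, 3, 3, 1] [5, 5, 1] := gen10

theorem og24 : Good [4, 3, 3, 1] [4, 3, 3, 1] [6, 5] := gen11

theorem og25 : Good [4, 3, 3, 1] [4, 3, 3, 1] [7, 4] := gen12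

theorem og26 : Good [3, 1, 1, 1] [4, 1, 1] [2, 2, 2] := good_swap23 (good_tr12 (good_swap23 (gen3)))

theorem og27 : Good [4, 1, 1] [4, 1, 1] [3, 3] := gen3

/-- packed oriented generators -/
def gensS : List (ℕ × ℕ × ℕ) :=
  [(4098, 4098, 4098),
   (16785410, 16785410, 16785410),
   (16785411, 16785411, 33562626),
   (68736258051, 68736258051, 12291),
   (68736262148, 68736262148, 33566723),
   (16781316, 68736258051, 33562626),
   (68769820676, 68769820676, 137489297411),
   (68769820676, 68769820676, 281543746531331),
   (68769820676, 68769820676, 281612449230851),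
   (68769820676, 68769820676, 563087425937411),
   (8195, 8195, 16785410),
   (68769820676, 68769820676, 1153484592032784386),
   (68769820676, 68769820676, 4723519685986701287426),
   (16785411, 16785411, 12291),
   (33566723, 68736262148, 68736262148),
   (16785410, 8195, 8195),
   (281543746531333, 281543746531333, 137489301508),
   (281543746531333, 281543746531333, 206208774148),
   (68736258051, 33562626, 16781316),
   (68769820676, 68769820676, 50348036),
   (68769820676, 68769820676, 50343941),
   (68769820676, 68769820676, 33570821),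
   (33562626, 68736258051, 16781316),
   (68769820676, 68769820676, 16797701),
   (68769820676, 68769820676, 20486),
   (68769820676, 68769820676, 16391),
   (68736258051, 16781316, 33562626),
   (16781316, 16781316, 12291)]

theorem gensS_good : ∀ t ∈ gensS, GoodN t.1 t.2.1 t.2.2 := by
  intro t ht
  simp only [gensS, List.mem_cons, List.not_mem_nil, or_false] at ht
  rcases ht with rfl | rfl | rfl | rfl | rfl | rfl | rfl | rfl | rfl | rfl | rfl | rfl | rfl | rfl | rfl | rfl | rfl | rfl | rfl | rfl | rfl | rfl | rfl | rfl | rfl | rfl | rfl | rfl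
  · exact goodN_of_good og0 (by decide) (by decide) (by decide) (by decide)
  · exact goodN_of_good og1 (by decide) (by decide) (by decide) (by decide)
  · exact goodN_of_good og2 (by decide) (by decide) (by decide) (by decide)
  · exact goodN_of_good og3 (by decide) (by decide) (by decide) (by decide)
  · exact goodN_of_good og4 (by decide) (by decide) (by decide) (by decide)
  · exact goodN_of_good og5 (by decide) (by decide) (by decide) (by decide)
  · exact goodN_of_good og6 (by decide) (by decide) (by decide) (by decide)
  · exact goodN_of_good og7 (by decide) (by decide) (by decide) (by decide)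
  · exact goodN_of_good og8 (by decide) (by decide) (by decide) (by decide)
  · exact goodN_of_good og9 (by decide) (by decide) (by decide) (by decide)
  · exact goodN_of_good og10 (by decide) (by decide) (by decide) (by decide)
  · exact goodN_of_good og11 (by decide) (by decide) (by decide) (by decide)
  · exact goodN_of_good og12 (by decide) (by decide) (by decide) (by decide)
  · exact goodN_of_good og13 (by decide) (by decide) (by decide) (by decide)
  · exact goodN_of_good og14 (by decide) (by decide) (by decide) (by decide)
  · exact goodN_of_good og15 (by decide) (by decide) (by decide) (by decide)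
  · exact goodN_of_good og16 (by decide) (by decide) (by decide) (by decide)
  · exact goodN_of_good og17 (by decide) (by decide) (by decide) (by decide)
  · exact goodN_of_good og18 (by decide) (by decide) (by decide) (by decide)
  · exact goodN_of_good og19 (by decide) (by decide) (by decide) (by decide)
  · exact goodN_of_good og20 (by decide) (by decide) (by decide) (by decide)
  · exact goodN_of_good og21 (by decide) (by decide) (by decide) (by decide)
  · exact goodN_of_good og22 (by decide) (by decide) (by decide) (by decide)
  · exact goodN_of_good og23 (by decide) (by decide) (by decide) (by decide)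
  · exact goodN_of_good og24 (by decide) (by decide) (by decide) (by decide)
  · exact goodN_of_good og25 (by decide) (by decide) (by decide) (by decide)
  · exact goodN_of_good og26 (by decide) (by decide) (by decide) (by decide)
  · exact goodN_of_good og27 (by decide) (by decide) (by decide) (by decide)

/-- the generator `(2,1)^3` -/
def gensL : List (ℕ × ℕ × ℕ) := [(4098, 4098, 4098)]

theorem gensL_good : ∀ t ∈ gensL, GoodN t.1 t.2.1 t.2.2 := by
  intro t ht
  simp only [gensL, List.mem_cons, List.not_mem_nil, or_false] at ht
  rcases ht with rfl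
  exact goodN_of_good og0 (by decide) (by decide) (by decide) (by decide)

end Crest.Agent.SG
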