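import Crest.Agent.SG.Cert.N1
import Crest.Agent.SG.Cert.N3
import Crest.Agent.SG.Cert.N5
import Crest.Agent.SG.Cert.N6
import Crest.Agent.SG.Cert.N7
import Crest.Agent.SG.Cert.N8
import Crest.Agent.SG.Cert.N10
import Crest.Agent.SG.Cert.N11
import Crest.Agent.SG.Cert.N12
import Crest.Agent.SG.Cert.N13
import Crest.Agent.SG.Cert.N14
import Crest.Agent.SG.Cert.N15
import Crest.Agent.SG.Cert.N16
import Crest.Agent.SG.Cert.N17
import Crest.Agent.SG.Cert.N18
import Crest.Agent.SG.Cert.N19
import Crest.Agent.SG.Cert.N20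
import Crest.Agent.SG.Cert.N21
import Crest.Agent.SG.Cert.N22
import Crest.Agent.SG.Cert.N23
import Crest.Agent.SG.Cert.N24
import Crest.Agent.SG.Cert.N25
import Crest.Agent.SG.Cert.N26
import Crest.Agent.SG.Cert.N27
import Crest.Agent.SG.Cert.N28
import Crest.Agent.SG.Cert.N29
import Crest.Agent.SG.Cert.N30
import Crest.Agent.SG.Cert.N31
import Crest.Agent.SG.Cert.N32
import Crest.Agent.SG.Cert.N33
import Crest.Agent.SG.Cert.N34
import Crest.Agent.SG.Cert.N35
import Crest.Agent.SG.Cert.N36
import Crest.Agent.SG.Cert.N37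
import Crest.Agent.SG.Cert.N38
import Crest.Agent.SG.Cert.N39
import Crest.Agent.SG.Cert.N40
import Crest.Agent.SG.Cert.N41
import Crest.Agent.SG.Cert.N42
import Crest.Agent.SG.Cert.N43

/-!
# S0298 for `n ≤ 43`
-/

set_option autoImplicit false

namespace Crest.Agent.SG

/-- the statement S0298 for all `n ≤ 43` -/
theorem small (n : ℕ) (hn : 0 < n) (h2 : n ≠ 2) (h4 : n ≠ 4) (h9 : n ≠ 9) (h : n ≤ 43) :
    ∃ (V : Type) (_ : AddCommGroup V) (_ : Module ℂ V) (_ : FiniteDimensional ℂ V)
      (ρ : Representation ℂ (Equiv.Perm (Fin n)) V), Representation.IsIrreducible ρ ∧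
      ∀ (W : Type) [AddCommGroup W] [Module ℂ W] [FiniteDimensional ℂ W]
        (σ : Representation ℂ (Equiv.Perm (Fin n)) W), Representation.IsIrreducible σ →
        Nontrivial (Representation.IntertwiningMap σ (Representation.tprod ρ ρ)) := by
  obtain h | h | h | h | h | h | h | h | h | h | h | h | h | h | h | h | h | h | h | h | h | h | h | h | h | h | h | h | h | h | h | h | h | h | h | h | h | h | h | h :
      n = 1 ∨ n = 3 ∨ n = 5 ∨ n = 6 ∨ n = 7 ∨ n = 8 ∨ n = 10 ∨ n = 11 ∨ n = 12 ∨ n = 13 ∨ n = 14 ∨ n = 15 ∨ n = 16 ∨ n = 17 ∨ n = 18 ∨ n = 19 ∨ n = 20 ∨ n = 21 ∨ n = 22 ∨ n = 23 ∨ n = 24 ∨ n = 25 ∨ n = 26 ∨ n = 27 ∨ n = 28 ∨ n = 29 ∨ n = 30 ∨ n = 31 ∨ n = 32 ∨ n = 33 ∨ n = 34 ∨ n = 35 ∨ n = 36 ∨ n = 37 ∨ n = 38 ∨ n = 39 ∨ n = 40 ∨ n = 41 ∨ n = 42 ∨ n = 43 := by omega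
  · exact full_S0298 full1 (by rw [h]; decide)
  · exact full_S0298 full3 (by rw [h]; decide)
  · exact full_S0298 full5 (by rw [h]; decide)
  · exact full_S0298 full6 (by rw [h]; decide)
  · exact full_S0298 full7 (by rw [h]; decide)
  · exact full_S0298 full8 (by rw [h]; decide)
  · exact full_S0298 full10 (by rw [h]; decide)
  · exact full_S0298 full11 (by rw [h]; decide)
  · exact full_S0298 full12 (by rw [h]; decide)
  · exact full_S0298 full13 (by rw [h]; decide)
  · exact full_S0298 full14 (by rw [h]; decide)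
  · exact full_S0298 full15 (by rw [h]; decide)
  · exact full_S0298 full16 (by rw [h]; decide)
  · exact full_S0298 full17 (by rw [h]; decide)
  · exact full_S0298 full18 (by rw [h]; decide)
  · exact full_S0298 full19 (by rw [h]; decide)
  · exact full_S0298 full20 (by rw [h]; decide)
  · exact full_S0298 full21 (by rw [h]; decide)
  · exact full_S0298 full22 (by rw [h]; decide)
  · exact full_S0298 full23 (by rw [h]; decide)
  · exact full_S0298 full24 (by rw [h]; decide)
  · exact full_S0298 full25 (by rw [h]; decide)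
  · exact full_S0298 full26 (by rw [h]; decide)
  · exact full_S0298 full27 (by rw [h]; decide)
  · exact full_S0298 full28 (by rw [h]; decide)
  · exact full_S0298 full29 (by rw [h]; decide)
  · exact full_S0298 full30 (by rw [h]; decide)
  · exact full_S0298 full31 (by rw [h]; decide)
  · exact full_S0298 full32 (by rw [h]; decide)
  · exact full_S0298 full33 (by rw [h]; decide)
  · exact full_S0298 full34 (by rw [h]; decide)
  · exact full_S0298 full35 (by rw [h]; decide)
  · exact full_S0298 full36 (by rw [h]; decide)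
  · exact full_S0298 full37 (by rw [h]; decide)
  · exact full_S0298 full38 (by rw [h]; decide)
  · exact full_S0298 full39 (by rw [h]; decide)
  · exact full_S0298 full40 (by rw [h]; decide)
  · exact full_S0298 full41 (by rw [h]; decide)
  · exact full_S0298 full42 (by rw [h]; decide)
  · exact full_S0298 full43 (by rw [h]; decide)

end Crest.Agent.SG
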